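import Claimed.Agent.R286.Defs.Gh
import Claimed.Agent.R286.Defs.Sk
import Claimed.Agent.R286.Defs.Clk

/-!
# Row 286 (S0533), unit Ci (companion interface, PE appendix / LL Sec. 11) : MASS RESCALING      (owner helper53; 0 sorry; names `ghRs*`, `gh_rs_*`, `sk_rs_*`)

TEX[LL:found:estimates] (dictionary part only) ; PE appendix "Covariance and mass normalization" ; LL Sec. 11.1.      ADV: helper199.

The conversion from terminal mass `a` to terminal mass `a / c` (LL: `c = a`, target `1`):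
masses `m ↦ m / c`, covariance factors `A ↦ c A` (covariances `× c²`), fields `z ↦ c z`, STANDARD DRIVERS UNCHANGED.  Then
`F~ (c z) = c F z`, all transition densities, Gibbs weights, planted means / covariances, path laws and tree laws are THE SAME
(as functions of drivers and spins), `H = c H~`.

* finite hierarchies (`Defs/Gh`): `GhB.rs`, `GhLv.rs`, `ghRs`; `gh_rs_F`, `gh_rs_D`, `gh_rs_Gw`, `gh_rs_E`, `gh_rs_C`, `gh_rs_H`, `gh_rs_Path`, `gh_rs_Nu`, `gh_rs_Law`, `gh_rs_tree`, `gh_rs_adm`, `gh_rs_ok`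
* SK step paths (`Defs/Sk`, `skRs a`): `sk_rs_F`, **`sk_rs_Pr : skPr n 1 (skRs a P) = a * skPr n a P`**, `sk_rs_PrS`, `sk_rs_Psi`, `sk_rs_KK` (K_n invariant, `s ↦ s / a`), `sk_rs_G`, `sk_rs_Nu`,
  `sk_rs_adm`, clocks / gaps `sk_rs_clkB`, `sk_rs_cumB`, `sk_rs_ms`, `sk_rs_gap`; bare endpoint `sk_rs_phys`, `sk_rs_Fc : skG n a (skPhys (T / a²)) ξ = skFc n T ξ / a`
* clocks (`Defs/Clk`): `ghPosRs c p = (u / c, lam)`, `ghClkRs c f = c² f(c ·)`, `ghRTRs c τ`; `gh_rs_at`, `gh_rs_chain`, `gh_rs_ps`, **`gh_rs_lim`** (the limit operator, no hypothesis), `gh_rs_limEx`,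
  `gh_rs_CNu` (no hypothesis), `gh_rs_CPress` (given `GhLimEx`), `gh_rs_after`, `gh_rs_upto`, `gh_rs_isRT`, `gh_rs_RAtt`, `gh_rs_R2`, `gh_rs_clk1`
* SK clocks: **`sk_rs_CPr`**, `sk_rs_CPrS`, `sk_rs_CG` (given `GhLimEx`), **`sk_rs_CNu`, `sk_rs_CS`, `sk_rs_CB`** (no hypothesis)
* by-products for every user of `Defs/Clk`: `gh_idx_eq` (usable form of `ghIdx`: its elaborated body coerces the LIST by a monadic lift), `gh_lim_const_mul`, `gh_pos_le_iff`
-/

set_option autoImplicit false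
set_option linter.unusedSectionVars false

namespace Claimed.Agent.R286

open MeasureTheory ProbabilityTheory
open scoped ENNReal NNReal

variable {S ι : Type}

/-- rescaled base: terminal mass `a / c` -/
noncomputable def GhB.rs (c : ℝ) (B : GhB S) : GhB S := ⟨B.w, B.a / c⟩

/-- rescaled level: mass `m / c`, factor `c A` -/
noncomputable def GhLv.rs (c : ℝ) (l : GhLv S ι) : GhLv S ι := ⟨l.m / c, fun s i => c * l.A s i⟩

/-- rescaled hierarchy -/
noncomputable def ghRs (c : ℝ) (ls : List (GhLv S ι)) : List (GhLv S ι) := ls.map (GhLv.rs c)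

@[simp] theorem ghRs_nil (c : ℝ) : ghRs c ([] : List (GhLv S ι)) = [] := rfl
@[simp] theorem ghRs_cons (c : ℝ) (l : GhLv S ι) (ls : List (GhLv S ι)) : ghRs c (l :: ls) = l.rs c :: ghRs c ls := rfl
@[simp] theorem ghRs_length (c : ℝ) (ls : List (GhLv S ι)) : (ghRs c ls).length = ls.length := by simp [ghRs]

theorem gh_rs_ok [Fintype S] {c : ℝ} (hc : 0 < c) {B : GhB S} (hB : B.Ok) : (B.rs c).Ok :=
  ⟨hB.nonneg, hB.sum, div_pos hB.pos hc⟩

variable [Fintype S] [Fintype ι]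

theorem gh_rs_inc (c : ℝ) (l : GhLv S ι) (ξ : ι → ℝ) : (l.rs c).inc ξ = c • l.inc ξ := by
  funext s
  simp only [GhLv.inc, GhLv.rs, Pi.smul_apply, smul_eq_mul, Finset.mul_sum]
  exact Finset.sum_congr rfl fun i _ => by ring

theorem gh_rs_cov (c : ℝ) (l : GhLv S ι) (s t : S) : (l.rs c).cov s t = c ^ 2 * l.cov s t := by
  simp only [GhLv.cov, GhLv.rs, Finset.mul_sum]
  exact Finset.sum_congr rfl fun i _ => by ring

theorem gh_rs_adm {c : ℝ} (hc : 0 < c) {B : GhB S} {u : ℝ} {ls : List (GhLv S ι)} (h : GhAdm B u ls) :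
    GhAdm (B.rs c) (u / c) (ghRs c ls) := by
  obtain ⟨h1, h2⟩ := h
  refine ⟨?_, ?_⟩
  · unfold ghRs
    rw [List.pairwise_map]
    exact h1.imp fun {a b} hab => div_le_div_of_nonneg_right hab hc.le
  · intro l hl
    unfold ghRs at hl
    obtain ⟨l', hl', rfl⟩ := List.mem_map.1 hl
    exact ⟨div_le_div_of_nonneg_right (h2 l' hl').1 hc.le, div_le_div_of_nonneg_right (h2 l' hl').2 hc.le⟩

/-- the operation `T_m` under the rescaling -/
theorem gh_rs_T {Ω : Type} [MeasurableSpace Ω] (μ : Measure Ω) {c : ℝ} (hc : c ≠ 0) (m : ℝ) (F : Ω → ℝ) :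
    ghT μ (m / c) (fun ω => c * F ω) = c * ghT μ m F := by
  unfold ghT
  by_cases hm : m = 0
  · simp [hm, integral_const_mul]
  · have hmc : m / c ≠ 0 := div_ne_zero hm hc
    rw [if_neg hmc, if_neg hm]
    have : ∀ ω, m / c * (c * F ω) = m * F ω := fun ω => by field_simp
    simp only [this]
    field_simp

theorem gh_rs_F0 {c : ℝ} (hc : c ≠ 0) (B : GhB S) (z : S → ℝ) : ghF0 (B.rs c) (c • z) = c * ghF0 B z := by
  unfold ghF0 GhB.rs
  have : ∀ s, B.a / c * (c • z) s = B.a * z s := fun s => by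
    simp only [Pi.smul_apply, smul_eq_mul]; field_simp
  simp only [this]
  rw [inv_div]
  by_cases ha : B.a = 0
  · simp [ha]
  · field_simp

/-- **continuations**: `F~ (c z) = c F z` -/
theorem gh_rs_F {c : ℝ} (hc : c ≠ 0) (B : GhB S) (ls : List (GhLv S ι)) (z : S → ℝ) :
    ghF (B.rs c) (ghRs c ls) (c • z) = c * ghF B ls z := by
  induction ls generalizing z with
  | nil => exact gh_rs_F0 hc B z
  | cons l ls ih =>
    simp only [ghRs_cons, ghF]
    have : ∀ ξ : ι → ℝ, ghF (B.rs c) (ghRs c ls) (c • z + (l.rs c).inc ξ) = c * ghF B ls (z + l.inc ξ) := fun ξ => by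
      rw [gh_rs_inc, ← smul_add, ih]
    simp only [this]
    exact gh_rs_T _ hc l.m _

/-- transition densities are unchanged -/
theorem gh_rs_D {c : ℝ} (hc : c ≠ 0) (B : GhB S) (l : GhLv S ι) (ls : List (GhLv S ι)) (z : S → ℝ) (ξ : ι → ℝ) :
    ghD (B.rs c) (l.rs c) (ghRs c ls) (c • z) ξ = ghD B l ls z ξ := by
  unfold ghD
  rw [gh_rs_inc, ← smul_add, gh_rs_F hc, ← ghRs_cons, gh_rs_F hc]
  congr 1
  simp only [GhLv.rs]
  field_simp

/-- terminal Gibbs weights are unchanged -/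
theorem gh_rs_Gw {c : ℝ} (hc : c ≠ 0) (B : GhB S) (z : S → ℝ) (s : S) : ghGw (B.rs c) (c • z) s = ghGw B z s := by
  unfold ghGw GhB.rs
  have : ∀ s, B.a / c * (c • z) s = B.a * z s := fun s => by
    simp only [Pi.smul_apply, smul_eq_mul]; field_simp
  simp only [this]

/-- planted conditional means are unchanged -/
theorem gh_rs_E {c : ℝ} (hc : c ≠ 0) (B : GhB S) (ls : List (GhLv S ι)) (Φ : S → ℝ) (z : S → ℝ) :
    ghE (B.rs c) (ghRs c ls) Φ (c • z) = ghE B ls Φ z := by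
  induction ls generalizing z with
  | nil => simp only [ghRs_nil, ghE, gh_rs_Gw hc]
  | cons l ls ih =>
    simp only [ghRs_cons, ghE]
    refine integral_congr_ae (Filter.Eventually.of_forall fun ξ => ?_)
    simp only
    rw [gh_rs_D hc, gh_rs_inc, ← smul_add, ih]

/-- planted conditional covariances are unchanged -/
theorem gh_rs_C {c : ℝ} (hc : c ≠ 0) (B : GhB S) (ls : List (GhLv S ι)) (v w : S → ℝ) (z : S → ℝ) :
    ghC (B.rs c) (ghRs c ls) v w (c • z) = ghC B ls v w z := by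
  unfold ghC
  simp only [gh_rs_E hc]

/-- the Hessian: `H = c H~` -/
theorem gh_rs_H {c : ℝ} (hc : c ≠ 0) (B : GhB S) (ls : List (GhLv S ι)) (v w : S → ℝ) (z : S → ℝ) :
    c * ghH (B.rs c) (ghRs c ls) v w (c • z) = ghH B ls v w z := by
  induction ls generalizing z with
  | nil =>
    simp only [ghRs_nil, ghH]
    have := gh_rs_C (ι := ι) hc B [] v w z
    rw [ghRs_nil] at this
    rw [this]
    simp only [GhB.rs]
    field_simp
  | cons l ls ih =>
    simp only [ghRs_cons, ghH]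
    rw [← integral_const_mul]
    refine integral_congr_ae (Filter.Eventually.of_forall fun ξ => ?_)
    simp only
    rw [gh_rs_D hc, gh_rs_inc, ← smul_add, ← ih (z + l.inc ξ), gh_rs_E hc, gh_rs_E hc, ← ghRs_cons, gh_rs_E hc,
      gh_rs_E hc]
    simp only [GhLv.rs]
    field_simp

/-- the planted law of one path is unchanged (same drivers, same spin) -/
theorem gh_rs_Path {c : ℝ} (hc : c ≠ 0) (B : GhB S) (ls : List (GhLv S ι)) (z : S → ℝ) (P : (ℕ → ι → ℝ) → S → ℝ) :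
    ghPath (B.rs c) (ghRs c ls) (c • z) P = ghPath B ls z P := by
  induction ls generalizing z P with
  | nil => simp only [ghRs_nil, ghPath, gh_rs_Gw hc]
  | cons l ls ih =>
    simp only [ghRs_cons, ghPath]
    refine integral_congr_ae (Filter.Eventually.of_forall fun ξ => ?_)
    simp only
    rw [gh_rs_D hc, gh_rs_inc, ← smul_add, ih]

theorem gh_rs_DT {c : ℝ} (hc : c ≠ 0) (B : GhB S) {q : ℕ} (l : GhLv S ι) (ls : List (GhLv S ι)) (r : Fin q → Fin q)
    (G : Fin q → S → ℝ) (W : Fin q → ι → ℝ) :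
    ghDT (B.rs c) (l.rs c) (ghRs c ls) r (fun a => c • G a) W = ghDT B l ls r G W := by
  unfold ghDT
  simp only [gh_rs_D hc]

/-- **the positive tree laws are unchanged** (same drivers, same spins) -/
theorem gh_rs_Nu {c : ℝ} (hc : c ≠ 0) (B : GhB S) {q : ℕ} (ls : List (GhLv S ι)) (rep : ℕ → Fin q → Fin q)
    (G : Fin q → S → ℝ) (P : (ℕ → Fin q → ι → ℝ) → (Fin q → S) → ℝ) :
    ghNu (B.rs c) (ghRs c ls) rep (fun a => c • G a) P = ghNu B ls rep G P := by
  induction ls generalizing rep G P with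
  | nil => simp only [ghRs_nil, ghNu, gh_rs_Gw hc]
  | cons l ls ih =>
    simp only [ghRs_cons, ghNu]
    refine integral_congr_ae (Filter.Eventually.of_forall fun W => ?_)
    simp only
    rw [gh_rs_DT hc]
    have : (fun a => c • G a + (l.rs c).inc (W (rep 0 a))) = fun a => c • (G a + l.inc (W (rep 0 a))) := by
      funext a; rw [gh_rs_inc, smul_add]
    rw [this, ih]

/-- the tree laws as measures -/
theorem gh_rs_Law [MeasurableSpace S] {c : ℝ} (hc : c ≠ 0) (B : GhB S) {q : ℕ} (ls : List (GhLv S ι))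
    (rep : ℕ → Fin q → Fin q) (G : Fin q → S → ℝ) :
    ghLaw (B.rs c) (ghRs c ls) rep (fun a => c • G a) = ghLaw B ls rep G := by
  induction ls generalizing rep G with
  | nil => simp only [ghRs_nil, ghLaw, gh_rs_Gw hc]
  | cons l ls ih =>
    simp only [ghRs_cons, ghLaw]
    have h1 : ∀ W : Fin q → ι → ℝ,
        (fun a => c • G a + (l.rs c).inc (W (rep 0 a))) = fun a => c • (G a + l.inc (W (rep 0 a))) := fun W => by
      funext a; rw [gh_rs_inc, smul_add]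
    simp only [gh_rs_DT hc, h1, ih]

/-- tree expectation from the root field -/
theorem gh_rs_tree {c : ℝ} (hc : c ≠ 0) {q : ℕ} (T : GhTree q) (B : GhB S) (ls : List (GhLv S ι)) (z : S → ℝ)
    (P : (ℕ → Fin q → ι → ℝ) → (Fin q → S) → ℝ) :
    T.nu (B.rs c) (ghRs c ls) (c • z) P = T.nu B ls z P := by
  unfold GhTree.nu
  exact gh_rs_Nu hc B ls T.rep (fun _ => z) P

/-! ### the SK instance, step paths -/

theorem sk_rs_base (n : ℕ) {a : ℝ} (ha : a ≠ 0) : (skBase n a).rs a = skBase n 1 := by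
  simp only [skBase, ghUnif, GhB.rs, div_self ha]

theorem sk_rs_lvs (n : ℕ) {a : ℝ} (ha : 0 ≤ a) (P : SkStp) : skLvs n (skRs a P) = ghRs a (skLvs n P) := by
  unfold skLvs skRs ghRs
  rw [List.map_map, List.map_map]
  refine List.map_congr_left fun e _ => ?_
  simp only [Function.comp, SkInc.lv, ghLvF, GhLv.rs]
  congr 1
  funext s i
  cases i with
  | inl p => simp only [Sum.elim_inl]; rw [Real.sqrt_mul (sq_nonneg a), Real.sqrt_sq ha]; ring
  | inr p => simp only [Sum.elim_inr]; rw [Real.sqrt_mul (sq_nonneg a), Real.sqrt_sq ha]; ring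

/-- `F~ (a z) = a F z` -/
theorem sk_rs_F (n : ℕ) {a : ℝ} (ha : 0 < a) (P : SkStp) (z : SkCfg n → ℝ) :
    skF n 1 (skRs a P) (a • z) = a * skF n a P z := by
  unfold skF
  rw [sk_rs_lvs n ha.le, ← sk_rs_base n ha.ne', gh_rs_F ha.ne']

theorem sk_rs_totB (a : ℝ) (P : SkStp) : skTotB (skRs a P) = a ^ 2 * skTotB P := by
  unfold skTotB skRs
  induction P with
  | nil => simp
  | cons e P ih => simp only [List.map_cons, List.sum_cons, ih]; ring

theorem sk_rs_totH (a : ℝ) (P : SkStp) : skTotH (skRs a P) = a ^ 2 * skTotH P := by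
  unfold skTotH skRs
  induction P with
  | nil => simp
  | cons e P ih => simp only [List.map_cons, List.sum_cons, ih]; ring

theorem sk_rs_take (a : ℝ) (P : SkStp) (j : ℕ) : (skRs a P).take j = skRs a (P.take j) := by
  unfold skRs; rw [List.map_take]

theorem sk_rs_cumB (a : ℝ) (P : SkStp) (j : ℕ) : skCumB (skRs a P) j = a ^ 2 * skCumB P j := by
  have := sk_rs_totB a (P.take j)
  unfold skTotB at this
  unfold skCumB
  rw [sk_rs_take, this]

theorem sk_rs_cumH (a : ℝ) (P : SkStp) (j : ℕ) : skCumH (skRs a P) j = a ^ 2 * skCumH P j := by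
  have := sk_rs_totH a (P.take j)
  unfold skTotH at this
  unfold skCumH
  rw [sk_rs_take, this]

theorem sk_rs_filter {a : ℝ} (ha : 0 < a) (P : SkStp) (u : ℝ) :
    ((skRs a P).filter fun e => decide (e.m ≤ u / a)) = skRs a (P.filter fun e => decide (e.m ≤ u)) := by
  unfold skRs
  rw [List.filter_map]
  congr 1
  refine List.filter_congr fun e _ => ?_
  simp only [Function.comp, decide_eq_decide]
  exact div_le_div_iff_of_pos_right ha

theorem sk_rs_clkB {a : ℝ} (ha : 0 < a) (P : SkStp) (u : ℝ) : skClkB (skRs a P) (u / a) = a ^ 2 * skClkB P u := by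
  have := sk_rs_totB a (P.filter fun e => decide (e.m ≤ u))
  unfold skTotB at this
  unfold skClkB
  rw [sk_rs_filter ha, this]

theorem sk_rs_clkH {a : ℝ} (ha : 0 < a) (P : SkStp) (u : ℝ) : skClkH (skRs a P) (u / a) = a ^ 2 * skClkH P u := by
  have := sk_rs_totH a (P.filter fun e => decide (e.m ≤ u))
  unfold skTotH at this
  unfold skClkH
  rw [sk_rs_filter ha, this]

theorem sk_rs_ms {a : ℝ} (ha : a ≠ 0) (P : SkStp) (j : ℕ) : skMs 1 (skRs a P) j = skMs a P j / a := by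
  unfold skMs skRs
  rw [List.map_map]
  by_cases hj : j < P.length
  · rw [List.getD_eq_getElem _ _ (by simpa using hj), List.getD_eq_getElem _ _ (by simpa using hj)]
    simp
  · rw [List.getD_eq_default _ _ (by simpa using hj), List.getD_eq_default _ _ (by simpa using hj), div_self ha]

theorem sk_rs_gap {a : ℝ} (ha : a ≠ 0) (P : SkStp) (j : ℕ) : skGap 1 (skRs a P) j = skGap a P j / a := by
  unfold skGap
  rw [sk_rs_ms ha, sk_rs_ms ha]
  split_ifs <;> ring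

theorem sk_rs_adm {a : ℝ} (ha : 0 < a) {P : SkStp} (h : SkAdm a P) : SkAdm 1 (skRs a P) := by
  obtain ⟨h1, h2⟩ := h
  refine ⟨?_, ?_⟩
  · unfold skRs
    rw [List.pairwise_map]
    exact h1.imp fun {x y} hxy => div_le_div_of_nonneg_right hxy ha.le
  · intro e he
    unfold skRs at he
    obtain ⟨e', he', rfl⟩ := List.mem_map.1 he
    obtain ⟨k1, k2, k3, k4⟩ := h2 e' he'
    exact ⟨div_nonneg k1 ha.le, (div_le_one ha).2 k2, mul_nonneg (sq_nonneg a) k3, mul_nonneg (sq_nonneg a) k4⟩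

/-- **`f^{PE}(b~,h~) = a f(b,h)`** with a common source -/
theorem sk_rs_PrS (n : ℕ) {a : ℝ} (ha : 0 < a) (P : SkStp) (z : SkCfg n → ℝ) :
    skPrS n 1 (skRs a P) (a • z) = a * skPrS n a P z := by
  unfold skPrS
  rw [sk_rs_F n ha, sk_rs_totB, sk_rs_totH]
  ring

/-- **`f^{PE}(b~,h~) = a f(b,h)`** -/
theorem sk_rs_Pr (n : ℕ) {a : ℝ} (ha : 0 < a) (P : SkStp) : skPr n 1 (skRs a P) = a * skPr n a P := by
  have := sk_rs_PrS n ha P 0
  rw [smul_zero] at this
  exact this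

theorem sk_rs_tilt (a s : ℝ) (P : SkStp) : skTilt (s / a) (skRs a P) = skRs a (skTilt s P) := by
  cases P with
  | nil => rfl
  | cons e P => rfl

theorem sk_rs_Psi (n : ℕ) {a : ℝ} (ha : 0 < a) (s : ℝ) (P : SkStp) :
    skPsi n 1 (s / a) (skRs a P) = a * skPsi n a s P := by
  unfold skPsi
  rw [sk_rs_tilt, sk_rs_Pr n ha, sk_rs_Pr n ha]
  ring

/-- the transform `K_n(s)` is invariant -/
theorem sk_rs_KK (n : ℕ) {a : ℝ} (ha : 0 < a) (s : ℝ) (P : SkStp) :
    skKK n 1 (s / a) (skRs a P) = skKK n a s P := by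
  unfold skKK
  rw [sk_rs_Psi n ha]
  field_simp

theorem sk_rs_G (n : ℕ) {a : ℝ} (ha : 0 < a) (P : SkStp) (ξ : SkDr n → ℝ) :
    skG n 1 (skRs a P) ξ = a * skG n a P ξ := by
  cases P with
  | nil =>
    have := sk_rs_F n ha [] 0
    rw [smul_zero] at this
    exact this
  | cons e P =>
    have h1 : skRs a (e :: P) = (⟨e.m / a, a ^ 2 * e.db, a ^ 2 * e.dh⟩ : SkInc) :: skRs a P := rfl
    have h2 := sk_rs_lvs n ha.le [e]
    simp only [skLvs, skRs, ghRs, List.map_cons, List.map_nil, List.cons.injEq, and_true] at h2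
    rw [h1]
    simp only [skG]
    rw [h2, gh_rs_inc, sk_rs_F n ha]

/-- bare size endpoint (LL Sec. 11.1): `a = ℓ`, `b = T / ℓ²` -/
theorem sk_rs_phys {a : ℝ} (ha : a ≠ 0) (T : ℝ) : skRs a (skPhys (T / a ^ 2)) = skPhys T := by
  simp only [skRs, skPhys, List.map_cons, List.map_nil, zero_div, mul_zero]
  congr 2
  field_simp

/-- at the bare endpoint the total continuation is `F_n^c / ℓ` -/
theorem sk_rs_Fc (n : ℕ) {a : ℝ} (ha : 0 < a) (T : ℝ) (ξ : SkDr n → ℝ) :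
    skG n a (skPhys (T / a ^ 2)) ξ = skFc n T ξ / a := by
  unfold skFc
  rw [← sk_rs_phys ha.ne' T, sk_rs_G n ha]
  field_simp

/-- the positive tree laws of the SK step paths are unchanged -/
theorem sk_rs_Nu (n : ℕ) {a : ℝ} (ha : 0 < a) (P : SkStp) {q : ℕ} (rep : ℕ → Fin q → Fin q) (G : Fin q → SkCfg n → ℝ)
    (T : (ℕ → Fin q → SkDr n → ℝ) → (Fin q → SkCfg n) → ℝ) :
    ghNu (skBase n 1) (skLvs n (skRs a P)) rep (fun x => a • G x) T = ghNu (skBase n a) (skLvs n P) rep G T := by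
  rw [sk_rs_lvs n ha.le, ← sk_rs_base n ha.ne', gh_rs_Nu ha.ne']


/-! ### clocks (`Defs/Clk.lean`) -/

section clocks

open Filter Topology

/-- rescaled position: mass `u / c`, same fraction of the jump -/
noncomputable def ghPosRs (c : ℝ) (p : GhPos) : GhPos := toLex (p.u / c, p.lam)

/-- rescaled clock `c² f(c u)` -/
def ghClkRs (c : ℝ) (f : ℝ → ℝ) : ℝ → ℝ := fun u => c ^ 2 * f (c * u)

/-- rescaled real tree -/
noncomputable def ghRTRs (c : ℝ) (τ : ℕ → ℕ → WithTop GhPos) : ℕ → ℕ → WithTop GhPos := fun x y => (τ x y).map (ghPosRs c)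

theorem gh_rs_pos_u (c : ℝ) (p : GhPos) : (ghPosRs c p).u = p.u / c := rfl
theorem gh_rs_pos_lam (c : ℝ) (p : GhPos) : (ghPosRs c p).lam = p.lam := rfl
theorem gh_rs_posA (c u : ℝ) : ghPosRs c (ghPosA u) = ghPosA (u / c) := rfl
theorem gh_rs_posB (c u : ℝ) : ghPosRs c (ghPosB u) = ghPosB (u / c) := rfl
theorem gh_rs_posF (c u lam : ℝ) : ghPosRs c (ghPosF u lam) = ghPosF (u / c) lam := rfl

theorem gh_pos_le_iff (p q : GhPos) : p ≤ q ↔ p.u < q.u ∨ (p.u = q.u ∧ p.lam ≤ q.lam) := Prod.Lex.le_iff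

theorem gh_rs_pos_le {c : ℝ} (hc : 0 < c) (p q : GhPos) : ghPosRs c p ≤ ghPosRs c q ↔ p ≤ q := by
  rw [gh_pos_le_iff, gh_pos_le_iff, gh_rs_pos_u, gh_rs_pos_u, gh_rs_pos_lam, gh_rs_pos_lam,
    div_lt_div_iff_of_pos_right hc, div_left_inj' hc.ne']

theorem gh_rs_pos_inv {c : ℝ} (hc : c ≠ 0) (p : GhPos) : ghPosRs c⁻¹ (ghPosRs c p) = p := by
  have : p.u / c / c⁻¹ = p.u := by field_simp
  show toLex (p.u / c / c⁻¹, p.lam) = p
  rw [this]; rfl

/-- the rescaling of positions as an order isomorphism -/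
noncomputable def ghPosIso (c : ℝ) (hc : 0 < c) : GhPos ≃o GhPos where
  toFun := ghPosRs c
  invFun := ghPosRs c⁻¹
  left_inv := gh_rs_pos_inv hc.ne'
  right_inv := fun p => by
    have := gh_rs_pos_inv (inv_ne_zero hc.ne') p
    rwa [inv_inv] at this
  map_rel_iff' := fun {p q} => gh_rs_pos_le hc p q

theorem gh_rs_pos_ok {c : ℝ} (hc : 0 < c) (a : ℝ) (p : GhPos) : (ghPosRs c p).Ok (a / c) ↔ p.Ok a := by
  unfold GhPos.Ok
  rw [gh_rs_pos_u, gh_rs_pos_lam, div_le_div_iff_of_pos_right hc]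
  constructor
  · rintro ⟨h1, h2⟩
    exact ⟨by have := mul_nonneg h1 hc.le; rwa [div_mul_cancel₀ _ hc.ne'] at this, h2⟩
  · rintro ⟨h1, h2⟩
    exact ⟨div_nonneg h1 hc.le, h2⟩

theorem gh_rs_clamp {c : ℝ} (hc : 0 < c) (a : ℝ) (f : ℝ → ℝ) :
    ghClamp (a / c) (ghClkRs c f) = fun u => c ^ 2 * ghClamp a f (c * u) := by
  funext u
  unfold ghClamp ghClkRs
  by_cases hu : u < 0
  · rw [if_pos hu, if_pos (mul_neg_of_pos_of_neg hc hu), mul_zero]
  · rw [if_neg hu, if_neg (not_lt.2 (mul_nonneg hc.le (not_lt.1 hu))), mul_min_of_nonneg _ _ hc.le,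
      mul_div_cancel₀ _ hc.ne']

theorem gh_rs_map_Iio {c : ℝ} (hc : 0 < c) (x : ℝ) : Filter.map (fun u => c * u) (𝓝[<] x) = 𝓝[<] (c * x) := by
  have := (OrderIso.mulLeft₀ c hc).toHomeomorph.isEmbedding.map_nhdsWithin_eq (Set.Iio x) x
  have h2 : (⇑(OrderIso.mulLeft₀ c hc).toHomeomorph : ℝ → ℝ) = fun u => c * u := rfl
  have h3 : (fun u => c * u) '' Set.Iio x = Set.Iio (c * x) := (OrderIso.mulLeft₀ c hc).image_Iio x
  rw [h2, h3] at this
  exact this

theorem gh_rs_map_Ioi {c : ℝ} (hc : 0 < c) (x : ℝ) : Filter.map (fun u => c * u) (𝓝[>] x) = 𝓝[>] (c * x) := by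
  have := (OrderIso.mulLeft₀ c hc).toHomeomorph.isEmbedding.map_nhdsWithin_eq (Set.Ioi x) x
  have h2 : (⇑(OrderIso.mulLeft₀ c hc).toHomeomorph : ℝ → ℝ) = fun u => c * u := rfl
  have h3 : (fun u => c * u) '' Set.Ioi x = Set.Ioi (c * x) := (OrderIso.mulLeft₀ c hc).image_Ioi x
  rw [h2, h3] at this
  exact this

theorem gh_rs_tendsto_iff {l l' : Filter ℝ} {c k : ℝ} (hl : Filter.map (fun u => c * u) l = l') (hk : k ≠ 0) (g : ℝ → ℝ) :
    (∃ y, Tendsto (fun u => k * g (c * u)) l (𝓝 y)) ↔ ∃ y, Tendsto g l' (𝓝 y) := by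
  constructor
  · rintro ⟨y, hy⟩
    refine ⟨k⁻¹ * y, ?_⟩
    rw [← hl, tendsto_map'_iff]
    have := hy.const_mul k⁻¹
    refine this.congr fun u => ?_
    simp only [Function.comp]
    field_simp
  · rintro ⟨y, hy⟩
    rw [← hl, tendsto_map'_iff] at hy
    exact ⟨k * y, hy.const_mul k⟩

theorem gh_rs_leftLim {c k : ℝ} (hc : 0 < c) (hk : k ≠ 0) (g : ℝ → ℝ) (x : ℝ) :
    Function.leftLim (fun u => k * g (c * u)) x = k * Function.leftLim g (c * x) := by
  by_cases h : ∃ y, Tendsto g (𝓝[<] (c * x)) (𝓝 y)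
  · obtain ⟨y, hy⟩ := h
    rw [leftLim_eq_of_tendsto hy]
    rw [← gh_rs_map_Iio hc, tendsto_map'_iff] at hy
    exact leftLim_eq_of_tendsto (hy.const_mul k)
  · rw [leftLim_eq_of_not_tendsto _ h,
      leftLim_eq_of_not_tendsto _ (fun h' => h ((gh_rs_tendsto_iff (gh_rs_map_Iio hc x) hk g).1 h'))]

theorem gh_rs_rightLim {c k : ℝ} (hc : 0 < c) (hk : k ≠ 0) (g : ℝ → ℝ) (x : ℝ) :
    Function.rightLim (fun u => k * g (c * u)) x = k * Function.rightLim g (c * x) := by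
  by_cases h : ∃ y, Tendsto g (𝓝[>] (c * x)) (𝓝 y)
  · obtain ⟨y, hy⟩ := h
    rw [rightLim_eq_of_tendsto hy]
    rw [← gh_rs_map_Ioi hc, tendsto_map'_iff] at hy
    exact rightLim_eq_of_tendsto (hy.const_mul k)
  · rw [rightLim_eq_of_not_tendsto _ h,
      rightLim_eq_of_not_tendsto _ (fun h' => h ((gh_rs_tendsto_iff (gh_rs_map_Ioi hc x) hk g).1 h'))]

/-- clock values at a position -/
theorem gh_rs_at {c : ℝ} (hc : 0 < c) (a : ℝ) (f : ℝ → ℝ) (p : GhPos) :
    ghAt (a / c) (ghClkRs c f) (ghPosRs c p) = c ^ 2 * ghAt a f p := by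
  have hk : c ^ 2 ≠ 0 := pow_ne_zero 2 hc.ne'
  unfold ghAt
  rw [gh_rs_clamp hc, gh_rs_leftLim hc hk, gh_rs_rightLim hc hk, gh_rs_pos_u, gh_rs_pos_lam, mul_div_cancel₀ _ hc.ne']
  ring

theorem gh_rs_clk1 {c : ℝ} (hc : 0 < c) {a : ℝ} {f : ℝ → ℝ} (h : GhClk1 a f) : GhClk1 (a / c) (ghClkRs c f) := by
  obtain ⟨h1, h2⟩ := h
  refine ⟨fun x hx y hy hxy => ?_, ?_⟩
  · have hx' : c * x ∈ Set.Icc 0 a := ⟨mul_nonneg hc.le hx.1, by have := hx.2; rwa [le_div_iff₀ hc, mul_comm] at this⟩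
    have hy' : c * y ∈ Set.Icc 0 a := ⟨mul_nonneg hc.le hy.1, by have := hy.2; rwa [le_div_iff₀ hc, mul_comm] at this⟩
    exact mul_le_mul_of_nonneg_left (h1 hx' hy' (mul_le_mul_of_nonneg_left hxy hc.le)) (sq_nonneg c)
  · unfold ghClkRs
    rw [mul_zero]
    exact mul_nonneg (sq_nonneg c) h2

theorem gh_rs_clkAt {c : ℝ} (hc : 0 < c) (a : ℝ) (v : ι → ℝ → ℝ) (p : GhPos) :
    ghClkAt (a / c) (fun i => ghClkRs c (v i)) (ghPosRs c p) = fun i => c ^ 2 * ghClkAt a v p i := by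
  funext i
  exact gh_rs_at hc a (v i) p

theorem gh_rs_after {c : ℝ} (hc : 0 < c) (a : ℝ) (v : ι → ℝ → ℝ) (p : GhPos) :
    ghAfter (a / c) (fun i => ghClkRs c (v i)) (ghPosRs c p) = fun i => ghClkRs c (ghAfter a v p i) := by
  funext i u
  unfold ghAfter
  simp only [ghClkRs.eq_1 c (fun u => if u < p.u then 0 else max 0 (ghClamp a (v i) u - ghAt a (v i) p))]
  have hiff : u < p.u / c ↔ c * u < p.u := by rw [lt_div_iff₀ hc, mul_comm]
  rw [gh_rs_at hc, gh_rs_clamp hc, gh_rs_pos_u]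
  by_cases hu : c * u < p.u
  · rw [if_pos hu, if_pos (hiff.2 hu), mul_zero]
  · rw [if_neg hu, if_neg (fun h => hu (hiff.1 h)), mul_max_of_nonneg _ _ (sq_nonneg c), mul_zero, mul_sub]

theorem gh_rs_upto {c : ℝ} (hc : 0 < c) (a : ℝ) (v : ι → ℝ → ℝ) (p : GhPos) :
    ghUpto (a / c) (fun i => ghClkRs c (v i)) (ghPosRs c p) = fun i => ghClkRs c (ghUpto a v p i) := by
  funext i u
  unfold ghUpto
  simp only [ghClkRs.eq_1 c (fun u => if u < p.u then ghClamp a (v i) u else ghAt a (v i) p)]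
  have hiff : u < p.u / c ↔ c * u < p.u := by rw [lt_div_iff₀ hc, mul_comm]
  rw [gh_rs_at hc, gh_rs_clamp hc, gh_rs_pos_u]
  by_cases hu : c * u < p.u
  · rw [if_pos hu, if_pos (hiff.2 hu)]
  · rw [if_neg hu, if_neg (fun h => hu (hiff.1 h))]

/-- the chains of the rescaled clocks are the rescaled chains -/
theorem gh_rs_chain (Φ : S → ι → ℝ) {c : ℝ} (hc : 0 < c) (a : ℝ) (v : ι → ℝ → ℝ) (c0 : ι → ℝ) (ps : List GhPos) :
    ghChain Φ (a / c) (fun i => ghClkRs c (v i)) (fun i => c ^ 2 * c0 i) (ps.map (ghPosRs c))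
      = ghRs c (ghChain Φ a v c0 ps) := by
  induction ps generalizing c0 with
  | nil => rfl
  | cons p ps ih =>
    simp only [List.map_cons, ghChain, ghRs_cons]
    rw [gh_rs_clkAt hc, ih]
    congr 1
    simp only [ghLvF, GhLv.rs, gh_rs_pos_u]
    congr 1
    funext s i
    rw [← mul_sub, Real.sqrt_mul (sq_nonneg c), Real.sqrt_sq hc.le]
    ring

/-- the order isomorphism of the finite sets of positions -/
noncomputable def ghFinIso (c : ℝ) (hc : 0 < c) : Finset GhPos ≃o Finset GhPos where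
  toEquiv := (ghPosIso c hc).toEquiv.finsetCongr
  map_rel_iff' := fun {s t} => by
    simp only [Equiv.finsetCongr_apply]
    exact Finset.map_subset_map

theorem gh_rs_ps {c : ℝ} (hc : 0 < c) (a : ℝ) (F : Finset GhPos) :
    ghPs (a / c) (ghFinIso c hc F) = (ghPs a F).map (ghPosRs c) := by
  classical
  unfold ghPs
  have h1 : (ghFinIso c hc F).filter (fun p => p.Ok (a / c))
      = (F.filter fun p => p.Ok a).map (ghPosIso c hc).toEquiv.toEmbedding := by
    ext p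
    simp only [ghFinIso, Finset.mem_filter, Finset.mem_map, RelIso.coe_fn_mk, Equiv.finsetCongr_apply,
      Equiv.coe_toEmbedding]
    constructor
    · rintro ⟨⟨x, hx, rfl⟩, h⟩
      exact ⟨x, ⟨hx, (gh_rs_pos_ok hc a x).1 h⟩, rfl⟩
    · rintro ⟨x, ⟨hx, h⟩, rfl⟩
      exact ⟨⟨x, hx, rfl⟩, (gh_rs_pos_ok hc a x).2 h⟩
  have h2 := Finset.map_sort (r := (· ≤ · : GhPos → GhPos → Prop)) (r' := (· ≤ · : GhPos → GhPos → Prop))
    (f := (ghPosIso c hc).toEquiv.toEmbedding) (s := F.filter fun p => p.Ok a)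
    (fun x _ y _ => (gh_rs_pos_le hc x y).symm)
  rw [h1, ← h2]
  rfl

/-- **the limit operator under the rescaling** (no hypothesis) -/
theorem gh_rs_lim {c : ℝ} (hc : 0 < c) (a : ℝ) (Q : List GhPos → ℝ) :
    ghLim (a / c) Q = ghLim a fun ps => Q (ps.map (ghPosRs c)) := by
  unfold ghLim limUnder
  have h1 : (fun F : Finset GhPos => Q ((ghPs a F).map (ghPosRs c)))
      = (fun F : Finset GhPos => Q (ghPs (a / c) F)) ∘ (ghFinIso c hc) := by
    funext F
    simp only [Function.comp, gh_rs_ps hc]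
  rw [h1, ← Filter.map_map, (ghFinIso c hc).map_atTop]

theorem gh_rs_limEx {c : ℝ} (hc : 0 < c) (a : ℝ) (Q : List GhPos → ℝ) :
    GhLimEx (a / c) Q ↔ GhLimEx a fun ps => Q (ps.map (ghPosRs c)) := by
  unfold GhLimEx
  rw [← gh_rs_lim hc]
  have h1 : (fun F : Finset GhPos => Q ((ghPs a F).map (ghPosRs c)))
      = (fun F : Finset GhPos => Q (ghPs (a / c) F)) ∘ (ghFinIso c hc) := by
    funext F
    simp only [Function.comp, gh_rs_ps hc]
  rw [h1, ← tendsto_map'_iff, (ghFinIso c hc).map_atTop]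

theorem gh_lim_const_mul {a : ℝ} {Q : List GhPos → ℝ} (h : GhLimEx a Q) (k : ℝ) :
    GhLimEx a (fun ps => k * Q ps) ∧ ghLim a (fun ps => k * Q ps) = k * ghLim a Q := by
  have h1 : Tendsto (fun F : Finset GhPos => k * Q (ghPs a F)) atTop (𝓝 (k * ghLim a Q)) := Tendsto.const_mul k h
  have h2 : ghLim a (fun ps => k * Q ps) = k * ghLim a Q := h1.limUnder_eq
  refine ⟨?_, h2⟩
  unfold GhLimEx
  rw [h2]
  exact h1

/-- `ghIdx` in usable form (the elaborated definition coerces the LIST `ps` to `List (WithTop GhPos)` by a monadic lift) -/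
theorem gh_idx_eq (ps : List GhPos) (p : WithTop GhPos) :
    ghIdx ps p = (ps.filter fun x : GhPos => decide ((x : WithTop GhPos) ≤ p)).length + if p = ⊤ then 1 else 0 := by
  unfold ghIdx
  congr 1
  have : (do let a ← ps; pure (a : WithTop GhPos)) = ps.map fun x : GhPos => (x : WithTop GhPos) := by
    simp only [List.bind_eq_flatMap, List.pure_def]
    induction ps with
    | nil => rfl
    | cons x xs ih => simp only [List.flatMap_cons, List.map_cons, ih, List.singleton_append]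
  rw [this, List.filter_map, List.length_map]
  rfl

theorem gh_rs_idx {c : ℝ} (hc : 0 < c) (ps : List GhPos) (p : WithTop GhPos) :
    ghIdx (ps.map (ghPosRs c)) (p.map (ghPosRs c)) = ghIdx ps p := by
  rw [gh_idx_eq, gh_idx_eq]
  rw [List.filter_map, List.length_map]
  congr 1
  · congr 1
    refine List.filter_congr fun x _ => ?_
    simp only [Function.comp, decide_eq_decide]
    cases p with
    | top => simp
    | coe y => simp only [WithTop.map_coe, WithTop.coe_le_coe]; exact gh_rs_pos_le hc x y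
  · cases p with
    | top => simp
    | coe y => simp

theorem gh_rs_disc {c : ℝ} (hc : 0 < c) (ps : List GhPos) (τ : ℕ → ℕ → WithTop GhPos) :
    ghDisc (ps.map (ghPosRs c)) (ghRTRs c τ) = ghDisc ps τ := by
  funext x y
  exact gh_rs_idx hc ps (τ x y)

theorem gh_rs_isRT {c : ℝ} (hc : 0 < c) {a : ℝ} {q : ℕ} {τ : ℕ → ℕ → WithTop GhPos} (h : GhIsRT a q τ) :
    GhIsRT (a / c) q (ghRTRs c τ) := by
  have hm : Monotone (WithTop.map (ghPosRs c)) := (ghPosIso c hc).monotone.withTop_map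
  refine ⟨fun x hx => ?_, fun x y hx hy => ?_, fun x y z hx hy hz => ?_, fun x y hx hy p hp => ?_⟩
  · simp only [ghRTRs, h.diag x hx, WithTop.map_top]
  · simp only [ghRTRs, h.symm x y hx hy]
  · simp only [ghRTRs]
    rw [← hm.map_min]
    exact hm (h.ultra x y z hx hy hz)
  · simp only [ghRTRs] at hp
    obtain ⟨p', hp', rfl⟩ := WithTop.map_eq_some_iff.1 hp
    exact (gh_rs_pos_ok hc a p').2 (h.ok x y hx hy p' hp')

theorem gh_rs_R2 (c : ℝ) (p : GhPos) : ghRTRs c (ghR2 p) = ghR2 (ghPosRs c p) := by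
  funext x y
  unfold ghRTRs ghR2
  split_ifs <;> rfl

theorem gh_rs_RAtt {c : ℝ} (hc : 0 < c) (q : ℕ) (τ : ℕ → ℕ → WithTop GhPos) (x : ℕ) (p : WithTop GhPos) :
    ghRTRs c (ghRAtt q τ x p) = ghRAtt q (ghRTRs c τ) x (p.map (ghPosRs c)) := by
  have hm : Monotone (WithTop.map (ghPosRs c)) := (ghPosIso c hc).monotone.withTop_map
  funext y z
  unfold ghRTRs ghRAtt
  split_ifs
  · rfl
  · exact hm.map_min
  · exact hm.map_min
  · rfl

/-- tree numbers on one chain -/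
theorem gh_rs_CNuF {c : ℝ} (hc : 0 < c) (B : GhB S) (Φ : S → ι → ℝ) (v : ι → ℝ → ℝ) (z : S → ℝ) (q : ℕ)
    (τ : ℕ → ℕ → WithTop GhPos) (P : (Fin q → S) → ℝ) (ps : List GhPos) :
    ghCNuF (B.rs c) Φ (fun i => ghClkRs c (v i)) (c • z) q (ghRTRs c τ) P (ps.map (ghPosRs c))
      = ghCNuF B Φ v z q τ P ps := by
  unfold ghCNuF
  have h0 : (0 : ι → ℝ) = fun i => c ^ 2 * (0 : ι → ℝ) i := by funext i; simp
  have h1 : (B.rs c).a = B.a / c := rfl
  rw [h1, gh_rs_disc hc, h0, gh_rs_chain Φ hc, ← h0]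
  exact gh_rs_Nu hc.ne' B _ _ (fun _ => z) _

/-- **tree numbers of clocks are invariant** (no hypothesis) -/
theorem gh_rs_CNu {c : ℝ} (hc : 0 < c) (B : GhB S) (Φ : S → ι → ℝ) (v : ι → ℝ → ℝ) (z : S → ℝ) (q : ℕ)
    (τ : ℕ → ℕ → WithTop GhPos) (P : (Fin q → S) → ℝ) :
    ghCNu (B.rs c) Φ (fun i => ghClkRs c (v i)) (c • z) q (ghRTRs c τ) P = ghCNu B Φ v z q τ P := by
  unfold ghCNu
  have h1 : (B.rs c).a = B.a / c := rfl
  rw [h1, gh_rs_lim hc]
  congr 1
  funext ps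
  exact gh_rs_CNuF hc B Φ v z q τ P ps

theorem gh_rs_CNu_ex {c : ℝ} (hc : 0 < c) (B : GhB S) (Φ : S → ι → ℝ) (v : ι → ℝ → ℝ) (z : S → ℝ) (q : ℕ)
    (τ : ℕ → ℕ → WithTop GhPos) (P : (Fin q → S) → ℝ) :
    GhLimEx (B.rs c).a (ghCNuF (B.rs c) Φ (fun i => ghClkRs c (v i)) (c • z) q (ghRTRs c τ) P)
      ↔ GhLimEx B.a (ghCNuF B Φ v z q τ P) := by
  have h1 : (B.rs c).a = B.a / c := rfl
  rw [h1, gh_rs_limEx hc]
  simp only [gh_rs_CNuF hc]

theorem gh_rs_CPressF {c : ℝ} (hc : 0 < c) (B : GhB S) (Φ : S → ι → ℝ) (v : ι → ℝ → ℝ) (z : S → ℝ) (ps : List GhPos) :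
    ghF (B.rs c) (ghChain Φ (B.rs c).a (fun i => ghClkRs c (v i)) 0 (ps.map (ghPosRs c))) (c • z)
      = c * ghF B (ghChain Φ B.a v 0 ps) z := by
  have h0 : (0 : ι → ℝ) = fun i => c ^ 2 * (0 : ι → ℝ) i := by funext i; simp
  have h1 : (B.rs c).a = B.a / c := rfl
  rw [h1, h0, gh_rs_chain Φ hc, ← h0, gh_rs_F hc.ne']

/-- root continuation of clocks: `F~ (c z) = c F z` (given that the limit exists) -/
theorem gh_rs_CPress {c : ℝ} (hc : 0 < c) (B : GhB S) (Φ : S → ι → ℝ) (v : ι → ℝ → ℝ) (z : S → ℝ)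
    (h : GhLimEx B.a fun ps => ghF B (ghChain Φ B.a v 0 ps) z) :
    ghCPress (B.rs c) Φ (fun i => ghClkRs c (v i)) (c • z) = c * ghCPress B Φ v z := by
  unfold ghCPress
  have h1 : (B.rs c).a = B.a / c := rfl
  rw [← (gh_lim_const_mul h c).2]
  conv_lhs => rw [h1, gh_rs_lim hc]
  congr 1
  funext ps
  exact gh_rs_CPressF hc B Φ v z ps

end clocks


/-! ### the SK instance, clocks -/

section skclocks

theorem sk_rs_clk (n : ℕ) (c : ℝ) (b h : ℝ → ℝ) :
    (fun i => ghClkRs c (skClk n b h i)) = skClk n (ghClkRs c b) (ghClkRs c h) := by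
  funext i; cases i <;> rfl

/-- the step paths sampled from the rescaled clocks are the rescaled step paths -/
theorem sk_rs_CStp {c : ℝ} (hc : 0 < c) (a : ℝ) (b h : ℝ → ℝ) (b0 h0 : ℝ) (ps : List GhPos) :
    skCStp (a / c) (ghClkRs c b) (ghClkRs c h) (c ^ 2 * b0) (c ^ 2 * h0) (ps.map (ghPosRs c))
      = skRs c (skCStp a b h b0 h0 ps) := by
  induction ps generalizing b0 h0 with
  | nil => rfl
  | cons p ps ih =>
    simp only [List.map_cons, skCStp]
    rw [gh_rs_at hc, gh_rs_at hc, ih]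
    simp only [skRs, List.map_cons, gh_rs_pos_u, mul_sub]

theorem sk_rs_CStp0 {a : ℝ} (ha : 0 < a) (b h : ℝ → ℝ) (ps : List GhPos) :
    skCStp 1 (ghClkRs a b) (ghClkRs a h) 0 0 (ps.map (ghPosRs a)) = skRs a (skCStp a b h 0 0 ps) := by
  have := sk_rs_CStp ha a b h 0 0 ps
  rwa [mul_zero, div_self ha.ne'] at this

/-- **`f^{PE}(b~,h~) = a f(b,h)`** for clocks, with a common source (given that the limit exists) -/
theorem sk_rs_CPrS (n : ℕ) {a : ℝ} (ha : 0 < a) (b h : ℝ → ℝ) (z : SkCfg n → ℝ)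
    (hex : GhLimEx a fun ps => skPrS n a (skCStp a b h 0 0 ps) z) :
    skCPrS n 1 (ghClkRs a b) (ghClkRs a h) (a • z) = a * skCPrS n a b h z := by
  unfold skCPrS
  rw [← (gh_lim_const_mul hex a).2]
  conv_lhs => rw [← div_self ha.ne', gh_rs_lim ha]
  congr 1
  funext ps
  rw [div_self ha.ne', sk_rs_CStp0 ha, sk_rs_PrS n ha]

/-- **`f^{PE}(b~,h~) = a f(b,h)`** for clocks (given that the limit exists) -/
theorem sk_rs_CPr (n : ℕ) {a : ℝ} (ha : 0 < a) (b h : ℝ → ℝ)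
    (hex : GhLimEx a fun ps => skPr n a (skCStp a b h 0 0 ps)) :
    skCPr n 1 (ghClkRs a b) (ghClkRs a h) = a * skCPr n a b h := by
  unfold skCPr
  rw [← (gh_lim_const_mul hex a).2]
  conv_lhs => rw [← div_self ha.ne', gh_rs_lim ha]
  congr 1
  funext ps
  rw [div_self ha.ne', sk_rs_CStp0 ha, sk_rs_Pr n ha]

/-- existence of the limit is transported -/
theorem sk_rs_CPr_ex (n : ℕ) {a : ℝ} (ha : 0 < a) (b h : ℝ → ℝ)
    (hex : GhLimEx a fun ps => skPr n a (skCStp a b h 0 0 ps)) :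
    GhLimEx 1 fun ps => skPr n 1 (skCStp 1 (ghClkRs a b) (ghClkRs a h) 0 0 ps) := by
  have h1 := (gh_lim_const_mul hex a).1
  have h2 := (gh_rs_limEx ha a fun ps => skPr n 1 (skCStp 1 (ghClkRs a b) (ghClkRs a h) 0 0 ps)).2
  rw [div_self ha.ne'] at h2
  apply h2
  simp only [sk_rs_CStp0 ha, sk_rs_Pr n ha]
  exact h1

/-- **tree numbers of the SK clocks are invariant** (no hypothesis) -/
theorem sk_rs_CNu (n : ℕ) {a : ℝ} (ha : 0 < a) (b h : ℝ → ℝ) (q : ℕ) (τ : ℕ → ℕ → WithTop GhPos)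
    (P : (Fin q → SkCfg n) → ℝ) :
    skCNu n 1 (ghClkRs a b) (ghClkRs a h) q (ghRTRs a τ) P = skCNu n a b h q τ P := by
  rw [sk_c_nu_eq, sk_c_nu_eq, ← gh_rs_CNu ha (skBase n a), sk_rs_base n ha.ne', sk_rs_clk, smul_zero]

/-- `S~_{v/a} = S_v` -/
theorem sk_rs_CS (n : ℕ) {a : ℝ} (ha : 0 < a) (b h : ℝ → ℝ) (p : GhPos) :
    skCS n 1 (ghClkRs a b) (ghClkRs a h) (ghPosRs a p) = skCS n a b h p := by
  unfold skCS
  rw [← gh_rs_R2, sk_rs_CNu n ha]

/-- `B~_{v/a} = B_v` -/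
theorem sk_rs_CB (n : ℕ) {a : ℝ} (ha : 0 < a) (b h : ℝ → ℝ) (p : GhPos) :
    skCB n 1 (ghClkRs a b) (ghClkRs a h) (ghPosRs a p) = skCB n a b h p := by
  unfold skCB
  rw [← gh_rs_R2, sk_rs_CNu n ha]

/-- `G~ = a G` (LL (A4)) for clocks (given that the limit exists) -/
theorem sk_rs_CG (n : ℕ) {a : ℝ} (ha : 0 < a) (b h : ℝ → ℝ) (ξ : SkDr n → ℝ)
    (hex : GhLimEx a fun ps => ghF (skBase n a) (ghChain (skPhi n) a (ghAfter a (skClk n b h) (ghPosA 0)) 0 ps)
      ((SkInc.lv n ⟨0, ghAt a b (ghPosA 0), ghAt a h (ghPosA 0)⟩).inc ξ)) :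
    skCG n 1 (ghClkRs a b) (ghClkRs a h) ξ = a * skCG n a b h ξ := by
  unfold skCG
  have h1 := gh_rs_CPress ha (skBase n a) (skPhi n) (ghAfter a (skClk n b h) (ghPosA 0))
    ((SkInc.lv n ⟨0, ghAt a b (ghPosA 0), ghAt a h (ghPosA 0)⟩).inc ξ) hex
  rw [← h1, sk_rs_base n ha.ne', ← gh_rs_after ha, sk_rs_clk, gh_rs_posA, zero_div, div_self ha.ne', ← gh_rs_inc]
  have h2 := sk_rs_lvs n ha.le [⟨0, ghAt a b (ghPosA 0), ghAt a h (ghPosA 0)⟩]
  simp only [skLvs, skRs, ghRs, List.map_cons, List.map_nil, List.cons.injEq, and_true, zero_div] at h2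
  have h3 := gh_rs_at ha a b (ghPosA 0)
  have h4 := gh_rs_at ha a h (ghPosA 0)
  rw [gh_rs_posA, zero_div, div_self ha.ne'] at h3 h4
  rw [← h2, h3, h4]

end skclocks

end Claimed.Agent.R286
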